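import Mathlib.Analysis.Complex.CauchyIntegral
import Mathlib.Analysis.SpecialFunctions.Pow.Integral
import Mathlib.MeasureTheory.Measure.Lebesgue.Complex
import Mathlib.MeasureTheory.Measure.Lebesgue.EqHaar
import Mathlib.MeasureTheory.Integral.Prod
import Mathlib.MeasureTheory.Group.Integral
import Mathlib.LinearAlgebra.Complex.FiniteDimensional

/-!
An averaged Cauchy formula: the area of the intersection of a set with a disc as a Cauchy
transform.
-/

namespace Vale.Agent.N131

open MeasureTheory Metric Complex Set Real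

/-- the density of the averaged circles -/
noncomputable def dens (U : Set ℂ) (r : ℝ) (ζ : ℂ) : ℂ :=
  ∫ θ in Ioc 0 (2 * π), circleMap 0 r θ * I * U.indicator 1 (ζ - circleMap 0 r θ)

lemma meas_ker {U : Set ℂ} (hU : MeasurableSet U) (r : ℝ) :
    Measurable fun p : ℝ × ℂ => circleMap 0 r p.1 * I * U.indicator 1 (p.2 - circleMap 0 r p.1) := by
  have h1 : Measurable fun p : ℝ × ℂ => circleMap 0 r p.1 :=
    (continuous_circleMap 0 r).measurable.comp measurable_fst
  exact (h1.mul_const I).mul ((measurable_one.indicator hU).comp (measurable_snd.sub h1))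

lemma norm_ker (U : Set ℂ) {r : ℝ} (hr : 0 ≤ r) (θ : ℝ) (a : ℂ) :
    ‖circleMap 0 r θ * I * U.indicator (1 : ℂ → ℂ) a‖ ≤ r := by
  rw [norm_mul, norm_mul, norm_circleMap_zero, norm_I, mul_one, abs_of_nonneg hr]
  by_cases h : a ∈ U
  · simp [h]
  · simp [h, hr]

lemma dens_meas {U : Set ℂ} (hU : MeasurableSet U) (r : ℝ) : StronglyMeasurable (dens U r) :=
  (meas_ker hU r).stronglyMeasurable.integral_prod_left'

lemma dens_bound (U : Set ℂ) {r : ℝ} (hr : 0 ≤ r) (ζ : ℂ) :
    ‖dens U r ζ‖ ≤ r * (volume.restrict (Ioc 0 (2 * π))).real univ :=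
  norm_integral_le_of_norm_le_const (Filter.Eventually.of_forall fun θ => norm_ker U hr θ _)

lemma circ_eq (f : ℂ → ℂ) (a : ℂ) (r : ℝ) :
    ∫ θ in Ioc 0 (2 * π), circleMap 0 r θ * I * f (a + circleMap 0 r θ) = ∮ z in C(a, r), f z := by
  rw [circleIntegral, intervalIntegral.integral_of_le (by positivity)]
  refine integral_congr_ae (Filter.Eventually.of_forall fun θ => ?_)
  simp only [deriv_circleMap, smul_eq_mul]
  congr 2
  simp [circleMap]

lemma dens_zero {U : Set ℂ} {r : ℝ} (hr : 0 ≤ r) {ζ : ℂ}
    (h : closedBall ζ r ⊆ U ∨ Disjoint (closedBall ζ r) U) : dens U r ζ = 0 := by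
  have hm : ∀ θ, ζ - circleMap 0 r θ ∈ closedBall ζ r := by
    intro θ
    rw [mem_closedBall, dist_eq_norm, sub_sub_cancel_left, norm_neg, norm_circleMap_zero,
      abs_of_nonneg hr]
  unfold dens
  rcases h with h | h
  · have h1 := circ_eq (fun _ => (1 : ℂ)) 0 r
    rw [circleIntegral_eq_zero_of_differentiable_on_off_countable hr countable_empty
      continuousOn_const (fun _ _ => differentiableAt_const _)] at h1
    refine Eq.trans ?_ h1
    refine integral_congr_ae (Filter.Eventually.of_forall fun θ => ?_)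
    simp only [indicator_of_mem (h (hm θ)), Pi.one_apply]
  · have h1 : ∀ θ, U.indicator (1 : ℂ → ℂ) (ζ - circleMap 0 r θ) = 0 := fun θ =>
      indicator_of_notMem (Set.disjoint_left.1 h (hm θ)) _
    simp only [h1, mul_zero, integral_zero]

lemma inv_integrable (z : ℂ) (M : ℝ) :
    Integrable ((ball z M).indicator fun ζ => ‖(ζ - z)⁻¹‖) := by
  have h1 : IntegrableOn (fun ζ : ℂ => ‖ζ⁻¹‖) (ball 0 M) := by
    refine integrableOn_ball_of_norm_le_rpow (C := 1) (α := 1)
      (by rw [Complex.finrank_real_complex]; norm_num)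
      (by rw [Complex.finrank_real_complex]; norm_num)
      (Filter.Eventually.of_forall fun x => ?_) measurable_inv.norm.aestronglyMeasurable
    rw [norm_norm, norm_inv, Real.rpow_neg_one, one_mul]
  have h2 := ((integrable_indicator_iff measurableSet_ball).2 h1).comp_sub_right z
  refine h2.congr (Filter.Eventually.of_forall fun ζ => ?_)
  by_cases h : ζ ∈ ball z M
  · have h3 : ζ - z ∈ ball (0 : ℂ) M := by simpa [dist_eq_norm] using h
    simp only [indicator_of_mem h, indicator_of_mem h3]
  · have h3 : ζ - z ∉ ball (0 : ℂ) M := by simpa [dist_eq_norm] using h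
    simp only [indicator_of_notMem h, indicator_of_notMem h3]

lemma shear (ν : Measure ℝ) [SFinite ν] {F : ℝ × ℂ → ℂ} (hFm : Measurable F)
    (hF : Integrable F (ν.prod volume)) {c : ℝ → ℂ} (hc : Measurable c) :
    ∫ ζ, ∫ θ, F (θ, ζ) ∂ν = ∫ a, ∫ θ, F (θ, a + c θ) ∂ν := by
  have hF'm : Measurable fun p : ℝ × ℂ => F (p.1, p.2 + c p.1) :=
    hFm.comp (measurable_fst.prodMk (measurable_snd.add (hc.comp measurable_fst)))
  have hF' : Integrable (fun p : ℝ × ℂ => F (p.1, p.2 + c p.1)) (ν.prod volume) := by
    rw [integrable_prod_iff hF'm.aestronglyMeasurable]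
    constructor
    · filter_upwards [hF.prod_right_ae] with θ hθ
      exact hθ.comp_add_right (c θ)
    · refine hF.integral_norm_prod_left.congr (Filter.Eventually.of_forall fun θ => ?_)
      exact (integral_add_right_eq_self (fun ζ => ‖F (θ, ζ)‖) (c θ)).symm
  calc ∫ ζ, ∫ θ, F (θ, ζ) ∂ν = ∫ θ, (∫ ζ, F (θ, ζ)) ∂ν :=
        (integral_integral_swap (f := fun θ ζ => F (θ, ζ)) hF).symm
    _ = ∫ θ, (∫ a, F (θ, a + c θ)) ∂ν := by
        refine integral_congr_ae (Filter.Eventually.of_forall fun θ => ?_)
        exact (integral_add_right_eq_self (fun ζ => F (θ, ζ)) (c θ)).symm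
    _ = ∫ a, ∫ θ, F (θ, a + c θ) ∂ν :=
        integral_integral_swap (f := fun θ a => F (θ, a + c θ)) hF'

/-- the averaged Cauchy formula -/
theorem cauchy_dens {U : Set ℂ} (hU : MeasurableSet U) (hb : Bornology.IsBounded U) {r : ℝ}
    (hr : 0 < r) (z : ℂ) :
    ∫ ζ, dens U r ζ * (ζ - z)⁻¹ = volume.real (U ∩ ball z r) • (2 * π * I : ℂ) := by
  obtain ⟨M, hM⟩ := hb.subset_ball z
  set ν : Measure ℝ := volume.restrict (Ioc 0 (2 * π)) with hν
  let F : ℝ × ℂ → ℂ := fun p =>
    circleMap 0 r p.1 * I * U.indicator 1 (p.2 - circleMap 0 r p.1) * (p.2 - z)⁻¹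
  have hFm : Measurable F := (meas_ker hU r).mul (measurable_snd.sub_const z).inv
  have hF : Integrable F (ν.prod volume) := by
    refine Integrable.mono' (((inv_integrable z (M + r)).const_mul r).comp_snd ν)
      hFm.aestronglyMeasurable (Filter.Eventually.of_forall fun p => ?_)
    by_cases h : p.2 ∈ ball z (M + r)
    · rw [indicator_of_mem h, norm_mul]
      exact mul_le_mul_of_nonneg_right (norm_ker U hr.le _ _) (norm_nonneg _)
    · have h1 : p.2 - circleMap 0 r p.1 ∉ U := by
        intro h2
        apply h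
        have h3 := hM h2
        rw [mem_ball, dist_eq_norm] at h3 ⊢
        have h4 : ‖p.2 - z‖ ≤ ‖p.2 - circleMap 0 r p.1 - z‖ + ‖circleMap 0 r p.1‖ := by
          have e : p.2 - z = (p.2 - circleMap 0 r p.1 - z) + circleMap 0 r p.1 := by ring
          conv_lhs => rw [e]
          exact norm_add_le _ _
        rw [norm_circleMap_zero, abs_of_pos hr] at h4
        linarith
      simp only [F, indicator_of_notMem h, indicator_of_notMem h1, mul_zero, zero_mul, norm_zero,
        le_refl]
  let F' : ℝ × ℂ → ℂ := fun p => F (p.1, p.2 + circleMap 0 r p.1)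
  calc ∫ ζ, dens U r ζ * (ζ - z)⁻¹ = ∫ ζ, ∫ θ, F (θ, ζ) ∂ν := by
        refine integral_congr_ae (Filter.Eventually.of_forall fun ζ => ?_)
        exact (integral_mul_const _ _).symm
    _ = ∫ a, ∫ θ, F' (θ, a) ∂ν := shear ν hFm hF (continuous_circleMap 0 r).measurable
    _ = ∫ a, (U ∩ ball z r).indicator (fun _ => (2 * π * I : ℂ)) a := by
        have h0 : ∀ᵐ a : ℂ, a ∉ sphere z r :=
          measure_eq_zero_iff_ae_notMem.1 (Measure.addHaar_sphere volume z r)
        refine integral_congr_ae ?_
        filter_upwards [h0] with a ha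
        have e1 : ∀ θ, F' (θ, a) = U.indicator 1 a *
            (circleMap 0 r θ * I * (a + circleMap 0 r θ - z)⁻¹) := by
          intro θ
          simp only [F', F, add_sub_cancel_right]
          ring
        simp only [e1]
        rw [integral_const_mul, hν, circ_eq (fun w => (w - z)⁻¹) a r]
        by_cases h1 : a ∈ U
        · rw [indicator_of_mem h1, Pi.one_apply, one_mul]
          by_cases h2 : a ∈ ball z r
          · rw [indicator_of_mem (mem_inter h1 h2)]
            exact circleIntegral.integral_sub_inv_of_mem_ball (mem_ball_comm.1 h2)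
          · rw [indicator_of_notMem (fun h => h2 h.2)]
            have h3 : ∀ w ∈ closedBall a r, w - z ≠ 0 := by
              intro w hw h4
              rw [sub_eq_zero] at h4
              rw [h4, mem_closedBall, dist_comm] at hw
              rw [mem_ball, not_lt] at h2
              exact ha (mem_sphere.2 (le_antisymm hw h2))
            refine circleIntegral_eq_zero_of_differentiable_on_off_countable hr.le countable_empty
              ((continuousOn_id.sub continuousOn_const).inv₀ h3) fun w hw => ?_
            exact (differentiableAt_id.sub_const z).inv (h3 w (ball_subset_closedBall hw.1))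
        · rw [indicator_of_notMem h1, zero_mul, indicator_of_notMem (fun h => h1 h.1)]
    _ = _ := integral_indicator_const _ (hU.inter measurableSet_ball)

end Vale.Agent.N131
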