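import Vale.Agent.N131.Step2

/-!
Every point of a connected set is reached by a chain.
-/

namespace Vale.Agent.N131

open Metric Vale.Agent.P131 Filter Topology

variable {H : Type*} [NormedAddCommGroup H] [InnerProductSpace ℂ H]

lemma Dat.mono {G : Set ℂ} {l0 : ℂ} {c c' r r' : ℝ} {l : ℂ} {δ δ' : ℝ} {N : H →L[ℂ] H} {x : H}
    (h : Dat G l0 c r l δ N x) (hc : c ≤ c') (hr : r ≤ r') (hδ : δ ≤ δ') :
    Dat G l0 c' r' l δ' N x := by
  obtain ⟨h0, h1, h2, h3, h4, h5⟩ := h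
  refine ⟨h0, h1, h2.trans hδ, fun y => (h3 y).trans ?_, fun y => (h4 y).trans ?_,
    fun μ y => le_trans ?_ (h5 μ y)⟩
  · exact mul_le_mul_of_nonneg_right hδ (norm_nonneg _)
  · exact mul_le_mul_of_nonneg_right hr (norm_nonneg _)
  · exact mul_le_mul_of_nonneg_right (by linarith) (norm_nonneg _)

/-- the points reached by the chain -/
def Good (H : Type*) [NormedAddCommGroup H] [InnerProductSpace ℂ H] (G : Set ℂ) (l0 : ℂ)
    (ε R : ℝ) (l : ℂ) : Prop :=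
  ∃ c r : ℝ, c < ε ∧ r < R ∧ ∀ δ : ℝ, 0 < δ → ∃ (N : H →L[ℂ] H) (x : H), Dat G l0 c r l δ N x

lemma good_base (hH : ¬ FiniteDimensional ℂ H) {G : Set ℂ} {l0 : ℂ} {ε R : ℝ} (hε : 0 < ε)
    (h0 : l0 ∈ G) (hR : ‖l0‖ < R) : Good H G l0 ε R l0 := by
  have hnt : Nontrivial H := by
    by_contra hcon
    rw [not_nontrivial_iff_subsingleton] at hcon
    exact hH inferInstance
  obtain ⟨x, hx⟩ := exists_norm_eq H (zero_le_one (α := ℝ))
  refine ⟨0, ‖l0‖, hε, hR, fun δ hδ => ⟨l0 • 1, x, ⟨1, fun y => by simp⟩, hx, ?_, ?_, ?_, ?_⟩⟩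
  · change ‖l0 • x - l0 • x‖ ≤ δ
    rw [sub_self, norm_zero]
    exact hδ.le
  · intro y
    change ‖inner ℂ x (l0 • y - l0 • y)‖ ≤ δ * ‖y‖
    rw [sub_self, inner_zero_right, norm_zero]
    positivity
  · intro y
    change ‖l0 • y‖ ≤ _
    rw [norm_smul]
  · intro μ y
    change _ ≤ ‖l0 • y - μ • y‖
    rw [← sub_smul, norm_smul, sub_zero, ← dist_eq_norm, dist_comm]
    exact mul_le_mul_of_nonneg_right (infDist_le_dist_of_mem h0) (norm_nonneg _)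

lemma good_step [CompleteSpace H] [TopologicalSpace.SeparableSpace H]
    (hH : ¬ FiniteDimensional ℂ H) {G : Set ℂ} {l0 : ℂ} {ε R : ℝ} {l l' : ℂ}
    (h : Good H G l0 ε R l) (hl : l ∈ G) (h1 : ‖l' - l‖ < ε) (h2 : ‖l‖ + ‖l' - l‖ < R) :
    Good H G l0 ε R l' := by
  obtain ⟨c, r, hc, hr, hδ⟩ := h
  set w := l' - l with hw
  have hc1 : max c ‖w‖ < ε := max_lt hc h1
  have hr1 : max r (‖l‖ + ‖w‖) < R := max_lt hr h2
  set σ := min (ε - max c ‖w‖) (R - max r (‖l‖ + ‖w‖)) / 8 with hσ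
  have hσ0 : 0 < σ := by
    have : 0 < min (ε - max c ‖w‖) (R - max r (‖l‖ + ‖w‖)) := lt_min (by linarith) (by linarith)
    positivity
  have hσ1 : 8 * σ ≤ ε - max c ‖w‖ := by
    have := min_le_left (ε - max c ‖w‖) (R - max r (‖l‖ + ‖w‖))
    linarith
  have hσ2 : 8 * σ ≤ R - max r (‖l‖ + ‖w‖) := by
    have := min_le_right (ε - max c ‖w‖) (R - max r (‖l‖ + ‖w‖))
    linarith
  refine ⟨max c ‖w‖ + 4 * σ, max r (‖l‖ + ‖w‖) + 4 * σ, by linarith, by linarith, fun δ hδ0 => ?_⟩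
  obtain ⟨N, x, hN⟩ := hδ (min (δ / 2) σ) (lt_min (by positivity) hσ0)
  obtain ⟨n, hn⟩ : ∃ n : ℕ, ‖w‖ * (√((n : ℝ) + 1))⁻¹ ≤ δ / 2 := by
    obtain ⟨n, hn⟩ := exists_nat_ge ((2 * ‖w‖ / δ) ^ 2)
    refine ⟨n, ?_⟩
    have h3 : 2 * ‖w‖ / δ ≤ √((n : ℝ) + 1) := Real.le_sqrt_of_sq_le (by linarith)
    have h4 : 0 < √((n : ℝ) + 1) := by positivity
    rw [← div_eq_mul_inv, div_le_iff₀ h4]
    rw [div_le_iff₀ hδ0] at h3
    linarith
  obtain ⟨N', x', hN'⟩ := step hN hl w n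
  have hsc : SecondCountableTopology H := UniformSpace.secondCountable_of_separable H
  have hinf : ¬ FiniteDimensional ℂ (PiLp 2 (fun _ : Fin (n + 1) => H)) := by
    intro hfin
    refine hH (Module.Finite.of_surjective
      (PiLp.proj (𝕜 := ℂ) 2 (fun _ : Fin (n + 1) => H) 0).toLinearMap fun y => ?_)
    exact ⟨WithLp.toLp 2 fun _ => y, rfl⟩
  obtain ⟨e⟩ := exists_equiv (PiLp 2 (fun _ : Fin (n + 1) => H)) H hinf hH
  obtain ⟨N'', x'', hN''⟩ := hN'.transfer e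
  have e1 : l + w = l' := by rw [hw]; ring
  rw [e1] at hN''
  have h5 := min_le_left (δ / 2) σ
  have h6 := min_le_right (δ / 2) σ
  exact ⟨N'', x'', hN''.mono (by linarith) (by linarith) (by linarith)⟩

theorem good_all [CompleteSpace H] [TopologicalSpace.SeparableSpace H]
    (hH : ¬ FiniteDimensional ℂ H) {G : Set ℂ} (hG : IsPreconnected G) {l0 : ℂ} {ε R : ℝ}
    (hε : 0 < ε) (h0 : l0 ∈ G) (hR : ∀ z ∈ G, ‖z‖ < R) {l : ℂ} (hl : l ∈ G) :
    Good H G l0 ε R l := by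
  have h := hG.induction₂' (fun a b => Good H G l0 ε R a → Good H G l0 ε R b) (by
    intro a ha
    have h1 : 0 < min ε ((R - ‖a‖) / 2) := lt_min hε (by linarith [hR a ha])
    have h2 : ∀ᶠ b in 𝓝[G] a, b ∈ ball a (min ε ((R - ‖a‖) / 2)) :=
      mem_nhdsWithin_of_mem_nhds (ball_mem_nhds a h1)
    filter_upwards [h2, self_mem_nhdsWithin] with b hb hbG
    rw [mem_ball, dist_eq_norm, lt_min_iff] at hb
    have h3 : ‖b‖ ≤ ‖a‖ + ‖b - a‖ := by
      have e : b = a + (b - a) := by ring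
      conv_lhs => rw [e]
      exact norm_add_le _ _
    have h4 : ‖a - b‖ = ‖b - a‖ := norm_sub_rev _ _
    have h5 := norm_nonneg (b - a)
    exact ⟨fun hg => good_step hH hg ha hb.1 (by linarith [hb.2]),
      fun hg => good_step hH hg hbG (by linarith [hb.1]) (by linarith [hb.2])⟩)
    (fun a b c _ _ _ hab hbc hg => hbc (hab hg)) h0 hl
  exact h (good_base hH hε h0 (hR l0 h0))

end Vale.Agent.N131
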