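import Vale.Agent.N131.Cauchy
import Vale.Agent.P131.H97.Clos
import Mathlib.Analysis.CStarAlgebra.GelfandDuality

/-!
The spectrum of an operator with transitive commutant is connected.
-/

namespace Vale.Agent.N131

open MeasureTheory Metric Complex Set Real Vale.Agent.P131.H856 Vale.Agent.P131.H97

/-- commutative Banach algebras without nontrivial idempotents have connected spectra -/
theorem conn_comm {A : Type*} [NormedCommRing A] [NormedAlgebra ℂ A] [CompleteSpace A]
    [Nontrivial A] (hA : ∀ P : A, P * P = P → P = 0 ∨ P = 1) (a : A) :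
    IsPreconnected (spectrum ℂ a) := by
  have hK : IsCompact (spectrum ℂ a) := spectrum.isCompact a
  rw [isPreconnected_iff_subset_of_fully_disjoint_closed hK.isClosed]
  intro u v hu hv huv hd
  by_contra hcon
  push Not at hcon
  obtain ⟨h1, h2⟩ := hcon
  obtain ⟨z2, hz2, hz2u⟩ := Set.not_subset.1 h1
  obtain ⟨z1, hz1, hz1v⟩ := Set.not_subset.1 h2
  have hz1u : z1 ∈ u := (huv hz1).resolve_right hz1v
  have hz2v : z2 ∈ v := (huv hz2).resolve_left hz2u
  set s := spectrum ℂ a ∩ u with hs
  have hsc : IsCompact s := hK.inter_right hu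
  obtain ⟨δ, hδ, hdis⟩ := (hd.mono_left (inter_subset_right : s ⊆ u)).exists_thickenings hsc hv
  set r := δ / 3 with hr
  have hr0 : 0 < r := by positivity
  set U := thickening δ s with hU
  have hUm : MeasurableSet U := isOpen_thickening.measurableSet
  have hUb : Bornology.IsBounded U := hsc.isBounded.thickening
  set Sh := cthickening (δ + r) s \ (thickening r s ∪ thickening r v) with hSh
  have hShc : IsCompact Sh :=
    hsc.cthickening.diff (isOpen_thickening.union isOpen_thickening)
  have hball : ∀ (t : Set ℂ) (ζ : ℂ), ζ ∈ thickening r t → closedBall ζ r ⊆ thickening δ t := by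
    intro t ζ hζ w hw
    obtain ⟨y, hy, hζy⟩ := mem_thickening_iff.1 hζ
    refine mem_thickening_iff.2 ⟨y, hy, ?_⟩
    have h3 := dist_triangle w ζ y
    rw [mem_closedBall] at hw
    linarith
  have hzero : ∀ ζ, ζ ∉ Sh → dens U r ζ = 0 := by
    intro ζ hζ
    refine dens_zero hr0.le ?_
    by_cases h3 : ζ ∈ thickening r s
    · exact Or.inl (hball s ζ h3)
    · by_cases h4 : ζ ∈ thickening r v
      · exact Or.inr (hdis.symm.mono_left (hball v ζ h4))
      · right
        rw [Set.disjoint_left]
        intro w hw hwU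
        refine hζ ⟨?_, fun h => h.elim h3 h4⟩
        obtain ⟨y, hy, hwy⟩ := mem_thickening_iff.1 hwU
        refine mem_cthickening_of_dist_le ζ y _ _ hy ?_
        have h5 := dist_triangle ζ w y
        rw [mem_closedBall, dist_comm] at hw
        linarith
  have hres : ∀ ζ ∈ Sh, ζ ∈ resolventSet ℂ a := by
    intro ζ hζ
    by_contra h3
    rcases huv h3 with h4 | h4
    · exact hζ.2 (Or.inl (self_subset_thickening hr0 s ⟨h3, h4⟩))
    · exact hζ.2 (Or.inr (self_subset_thickening hr0 v h4))
  have hcont : ContinuousOn (resolvent a : ℂ → A) Sh := fun ζ hζ =>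
    (spectrum.hasDerivAt_resolvent_const_left (hres ζ hζ)).continuousAt.continuousWithinAt
  have hint : Integrable (fun ζ => dens U r ζ • resolvent a ζ) (volume.restrict Sh) :=
    Integrable.bdd_smul (hcont.integrableOn_compact hShc) _ (dens_meas hUm r).aestronglyMeasurable
      (Filter.Eventually.of_forall (dens_bound U hr0.le))
  set b : A := ∫ ζ in Sh, dens U r ζ • resolvent a ζ with hb
  have hχ : ∀ χ : WeakDual.characterSpace ℂ A,
      χ b = volume.real (U ∩ ball (χ a) r) • (2 * π * I : ℂ) := by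
    intro χ
    have h3 : χ b = ∫ ζ in Sh, WeakDual.CharacterSpace.toCLM χ (dens U r ζ • resolvent a ζ) :=
      ((WeakDual.CharacterSpace.toCLM χ).integral_comp_comm hint).symm
    rw [h3, ← cauchy_dens hUm hUb hr0,
      ← setIntegral_eq_integral_of_forall_compl_eq_zero (s := Sh)
        (f := fun ζ => dens U r ζ * (ζ - χ a)⁻¹) (fun ζ hζ => by rw [hzero ζ hζ, zero_mul])]
    refine setIntegral_congr_fun hShc.measurableSet fun ζ hζ => ?_
    have h4 : (algebraMap ℂ A ζ - a) * resolvent a ζ = 1 := Ring.mul_inverse_cancel _ (hres ζ hζ)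
    have h5 : (ζ - χ a) * χ (resolvent a ζ) = 1 := by
      have h6 := congrArg χ h4
      rwa [map_mul, map_sub, map_one, AlgHomClass.commutes] at h6
    change χ (dens U r ζ • resolvent a ζ) = dens U r ζ * (ζ - χ a)⁻¹
    rw [map_smul, smul_eq_mul, eq_inv_of_mul_eq_one_right h5]
  set κ : ℂ := volume.real (ball (0 : ℂ) r) • (2 * π * I : ℂ) with hκ
  have hκ0 : κ ≠ 0 := by
    refine smul_ne_zero ?_ two_pi_I_ne_zero
    exact (ENNReal.toReal_pos (measure_ball_pos volume _ hr0).ne' measure_ball_lt_top.ne).ne'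
  have hin : ∀ z ∈ s, volume.real (U ∩ ball z r) • (2 * π * I : ℂ) = κ := by
    intro z hz
    have h3 : ball z r ⊆ U := ball_subset_closedBall.trans
      (hball s z (self_subset_thickening hr0 s hz))
    rw [inter_eq_right.2 h3, hκ, Measure.addHaar_real_ball_center]
  have hout : ∀ z ∈ v, volume.real (U ∩ ball z r) • (2 * π * I : ℂ) = 0 := by
    intro z hz
    have h3 : ball z r ⊆ thickening δ v := ball_subset_closedBall.trans
      (hball v z (self_subset_thickening hr0 v hz))
    rw [(hdis.mono_right h3).inter_eq, measureReal_empty, zero_smul]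
  have hsub : spectrum ℂ b ⊆ {κ, 0} := by
    intro w hw
    obtain ⟨χ, rfl⟩ := WeakDual.CharacterSpace.mem_spectrum_iff_exists.1 hw
    have h3 : χ a ∈ spectrum ℂ a := WeakDual.CharacterSpace.mem_spectrum_iff_exists.2 ⟨χ, rfl⟩
    rw [hχ]
    rcases huv h3 with h4 | h4
    · exact Or.inl (hin _ ⟨h3, h4⟩)
    · exact Or.inr (hout _ h4)
  obtain ⟨z, hz⟩ := single_of_closure (A := b)
    (subset_closure fun P hP _ => hA P hP) ((Set.toFinite _).countable.mono hsub)
  obtain ⟨χ1, h5⟩ := WeakDual.CharacterSpace.mem_spectrum_iff_exists.1 hz1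
  obtain ⟨χ2, h6⟩ := WeakDual.CharacterSpace.mem_spectrum_iff_exists.1 hz2
  have h7 : χ1 b ∈ spectrum ℂ b := WeakDual.CharacterSpace.mem_spectrum_iff_exists.2 ⟨χ1, rfl⟩
  have h8 : χ2 b ∈ spectrum ℂ b := WeakDual.CharacterSpace.mem_spectrum_iff_exists.2 ⟨χ2, rfl⟩
  rw [hχ, h5, hin _ ⟨hz1, hz1u⟩, hz] at h7
  rw [hχ, h6, hout _ hz2v, hz] at h8
  exact hκ0 (h7.trans h8.symm)

/-- the same for an element without nontrivial idempotent in its bicommutant -/
theorem conn_noIdem {R : Type*} [NormedRing R] [NormedAlgebra ℂ R] [CompleteSpace R]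
    [Nontrivial R] {T : R} (hT : T ∈ NoIdem R) : IsPreconnected (spectrum ℂ T) := by
  let A : Subalgebra ℂ R := Subalgebra.centralizer ℂ (Set.centralizer {T})
  have hmem : ∀ x : R, x ∈ A ↔ ∀ C : R, C * T = T * C → C * x = x * C := by
    intro x
    rw [Subalgebra.mem_centralizer_iff]
    refine ⟨fun h C hC => h C ?_, fun h C hC => h C ?_⟩
    · intro y hy
      rw [Set.mem_singleton_iff.1 hy]
      exact hC.symm
    · exact (hC T rfl).symm
  have hTA : T ∈ A := (hmem T).2 fun C hC => hC
  have hcl : IsClosed (A : Set R) := Set.isClosed_centralizer _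
  have : CompleteSpace A := hcl.completeSpace_coe
  let _ : NormedCommRing A :=
    { (inferInstance : NormedRing A) with
      mul_comm := fun x y => Subtype.ext
        ((hmem _).1 y.2 x.1 ((hmem _).1 x.2 T rfl).symm) }
  have h1 := conn_comm (A := A) (fun P hP => by
    rcases hT P.1 (congrArg Subtype.val hP) ((hmem _).1 P.2) with h | h
    · exact Or.inl (Subtype.ext h)
    · exact Or.inr (Subtype.ext h)) ⟨T, hTA⟩
  have h2 : spectrum ℂ (⟨T, hTA⟩ : A) = spectrum ℂ T := by
    apply Set.Subset.antisymm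
    · intro z hz hu
      obtain ⟨w, hw⟩ := hu
      have h3 : (↑w⁻¹ : R) ∈ A := by
        refine (hmem _).2 fun C hC => ?_
        have h4 : Commute C (w : R) := by
          rw [hw]
          exact Commute.sub_right (Algebra.commutes z C).symm hC
        exact h4.units_inv_right
      refine hz ⟨⟨_, ⟨↑w⁻¹, h3⟩, Subtype.ext ?_, Subtype.ext ?_⟩, rfl⟩
      · change (algebraMap ℂ R z - T) * ↑w⁻¹ = 1
        rw [← hw, w.mul_inv]
      · change ↑w⁻¹ * (algebraMap ℂ R z - T) = 1
        rw [← hw, w.inv_mul]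
    · exact AlgHom.spectrum_apply_subset A.val ⟨T, hTA⟩
  rwa [h2] at h1

theorem conn_TC {H : Type*} [NormedAddCommGroup H] [InnerProductSpace ℂ H] [CompleteSpace H]
    [Nontrivial H] {T : H →L[ℂ] H} (h : TC T) : IsConnected (spectrum ℂ T) :=
  ⟨spectrum.nonempty T, conn_noIdem (TC_noIdem h)⟩

end Vale.Agent.N131
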