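import Vale.Agent.N131.Chain

/-!
Hilbert sums of operators with transitive commutant.
-/

namespace Vale.Agent.N131

open Metric Vale.Agent.P131 Vale.Agent.P131.H856 Vale.Agent.P131.H97 Filter Topology
open scoped ENNReal

variable {X : Type*} [NormedAddCommGroup X] [InnerProductSpace ℂ X]

lemma ds_single (B : ℕ → X →L[ℂ] X) {K : ℝ} (hK : 0 ≤ K) (hB : ∀ i, ‖B i‖ ≤ K) (j : ℕ) (x : X) :
    lp.mapCLM 2 B hK hB (lp.single 2 j x) = lp.single 2 j (B j x) := by
  ext k
  change B k (lp.single (E := fun _ : ℕ => X) 2 j x k) = _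
  by_cases h : k = j
  · subst h
    rw [lp.single_apply_self, lp.single_apply_self]
  · rw [lp.single_apply_ne _ _ _ h, lp.single_apply_ne _ _ _ h, map_zero]

omit [InnerProductSpace ℂ X] in
lemma all_of_single {M : Set (lp (fun _ : ℕ => X) 2)} (hM : IsClosed M) (h0 : 0 ∈ M)
    (hadd : ∀ f ∈ M, ∀ g ∈ M, f + g ∈ M) (hs : ∀ j x, lp.single 2 j x ∈ M) (g) : g ∈ M := by
  have hs' : HasSum (fun i => lp.single 2 i (g i)) g := lp.hasSum_single (by norm_num) g
  refine hM.mem_of_tendsto hs' (Filter.Eventually.of_forall fun s => ?_)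
  exact Finset.sum_induction _ (· ∈ M) (fun a b ha hb => hadd a ha b hb) h0 fun i _ => hs i _

/-- the sum has transitive commutant -/
theorem TC_ds (B : ℕ → X →L[ℂ] X) {K : ℝ} (hK : 0 ≤ K) (hB : ∀ i, ‖B i‖ ≤ K)
    (h : ∀ i, TC (B i))
    (hC : ∀ i j, ∃ C : X →L[ℂ] X, (∀ x, C x = 0 → x = 0) ∧ ∀ x, C (B i x) = B j (C x)) :
    TC (lp.mapCLM 2 B hK hB) := by
  have hcomm : ∀ (i j : ℕ) (C : X →L[ℂ] X), (∀ x, C (B i x) = B j (C x)) →
      unit C i j ∘L lp.mapCLM 2 B hK hB = lp.mapCLM 2 B hK hB ∘L unit C i j := by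
    intro i j C hC
    refine ContinuousLinearMap.ext fun g => ?_
    change unit C i j (lp.mapCLM 2 B hK hB g) = lp.mapCLM 2 B hK hB (unit C i j g)
    rw [unit_apply, unit_apply, ds_single, ← hC]
    rfl
  refine ⟨fun z hz => (h 0).1 z ?_, fun M hM hinv => ?_⟩
  · ext x
    have h1 := congrArg (fun A : lp (fun _ : ℕ => X) 2 →L[ℂ] lp (fun _ : ℕ => X) 2 =>
      (A (lp.single 2 0 x)) 0) hz
    simp only [ds_single] at h1
    rw [lp.single_apply_self] at h1
    rw [h1]
    change (z • lp.single 2 0 x : lp (fun _ : ℕ => X) 2) 0 = z • x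
    rw [lp.coeFn_smul, Pi.smul_apply, lp.single_apply_self]
  · by_cases hbot : M = ⊥
    · exact Or.inl hbot
    · right
      obtain ⟨f, hf, hf0⟩ := (Submodule.ne_bot_iff M).1 hbot
      obtain ⟨i, hi⟩ : ∃ i, f i ≠ 0 := by
        by_contra hcon
        push Not at hcon
        exact hf0 (lp.ext (funext hcon))
      have hsingle : ∀ j : ℕ, ∀ x : X, lp.single 2 j x ∈ M := by
        intro j
        let M0 : Submodule ℂ X := M.comap (lp.lsingle (𝕜 := ℂ) (E := fun _ : ℕ => X) 2 j)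
        have hM0c : IsClosed (M0 : Set X) := by
          have hc : Continuous (fun x : X => lp.single (E := fun _ : ℕ => X) 2 j x) :=
            (lp.isometry_single (E := fun _ : ℕ => X) (p := 2) j).continuous
          exact hM.preimage hc
        have hinv0 : ∀ A : X →L[ℂ] X, A ∘L B j = B j ∘L A → ∀ x ∈ M0, A x ∈ M0 := by
          intro A hA x hx
          have hx' : lp.single 2 j x ∈ M := hx
          have h2 := hinv _ (hcomm j j A fun y =>
            congrArg (fun D : X →L[ℂ] X => D y) hA) _ hx'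
          rw [unit_apply, lp.single_apply_self] at h2
          exact h2
        have hne : M0 ≠ ⊥ := by
          intro hb
          obtain ⟨C, hC1, hC2⟩ := hC i j
          have h2 := hinv _ (hcomm i j C hC2) _ hf
          rw [unit_apply] at h2
          have h3 : C (f i) ∈ M0 := h2
          rw [hb, Submodule.mem_bot] at h3
          exact hi (hC1 _ h3)
        rcases (h j).2 M0 hM0c hinv0 with h3 | h3
        · exact absurd h3 hne
        · intro x
          have : x ∈ M0 := by rw [h3]; trivial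
          exact this
      rw [Submodule.eq_top_iff']
      exact all_of_single hM M.zero_mem (fun f hf g hg => M.add_mem hf hg) hsingle

lemma sep_lp [TopologicalSpace.SeparableSpace X] :
    TopologicalSpace.SeparableSpace (lp (fun _ : ℕ => X) 2) := by
  refine separable_of_countable
    (fun j : ℕ => LinearMap.range (lp.lsingle (𝕜 := ℂ) (E := fun _ : ℕ => X) 2 j)) (fun j => ?_) ?_
  · exact TopologicalSpace.isSeparable_range
      (lp.isometry_single (E := fun _ : ℕ => X) (p := 2) j).continuous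
  · rw [Submodule.eq_top_iff']
    refine all_of_single (Submodule.isClosed_topologicalClosure _) (Submodule.zero_mem _)
      (fun f hf g hg => Submodule.add_mem _ hf hg) fun j x => ?_
    exact Submodule.le_topologicalClosure _ (Submodule.mem_iSup_of_mem j ⟨x, rfl⟩)

/-- approximate eigenvalues belong to the spectrum -/
lemma mem_spec {A : X →L[ℂ] X} {g : ℂ}
    (h : ∀ η : ℝ, 0 < η → ∃ f, ‖f‖ = 1 ∧ ‖A f - g • f‖ ≤ η) : g ∈ spectrum ℂ A := by
  intro hu
  obtain ⟨u, hu⟩ := hu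
  obtain ⟨f, hf, hf2⟩ := h (1 / (‖(↑u⁻¹ : X →L[ℂ] X)‖ + 1)) (by positivity)
  have h1 : (↑u⁻¹ : X →L[ℂ] X) ((u : X →L[ℂ] X) f) = f :=
    congrArg (fun D : X →L[ℂ] X => D f) u.inv_mul
  have h2 : (u : X →L[ℂ] X) f = -(A f - g • f) := by
    rw [hu, neg_sub]
    rfl
  have h3 := (↑u⁻¹ : X →L[ℂ] X).le_opNorm ((u : X →L[ℂ] X) f)
  rw [h1, hf, h2, norm_neg] at h3
  have h4 := norm_nonneg (↑u⁻¹ : X →L[ℂ] X)
  have h5 := h3.trans (mul_le_mul_of_nonneg_left hf2 h4)
  rw [mul_one_div, le_div_iff₀ (by positivity)] at h5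
  linarith

/-- resolvent of the sum -/
lemma not_mem_spec (B : ℕ → X →L[ℂ] X) {K : ℝ} (hK : 0 ≤ K) (hB : ∀ i, ‖B i‖ ≤ K) {μ : ℂ}
    (h1 : ∀ i, μ ∉ spectrum ℂ (B i)) {d : ℝ} (hd : 0 < d) (k : ℕ)
    (h2 : ∀ i, k ≤ i → ∀ y, d * ‖y‖ ≤ ‖B i y - μ • y‖) :
    μ ∉ spectrum ℂ (lp.mapCLM 2 B hK hB) := by
  have h3 : ∀ i, ∃ V : X →L[ℂ] X, (∀ y, V (μ • y - B i y) = y) ∧ ∀ y, μ • V y - B i (V y) = y := by
    intro i
    obtain ⟨u, hu⟩ := spectrum.notMem_iff.1 (h1 i)
    have h4 : ∀ y, (u : X →L[ℂ] X) y = μ • y - B i y := fun y => by rw [hu]; rfl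
    refine ⟨↑u⁻¹, fun y => ?_, fun y => ?_⟩
    · rw [← h4]
      exact congrArg (fun D : X →L[ℂ] X => D y) u.inv_mul
    · rw [← h4]
      exact congrArg (fun D : X →L[ℂ] X => D y) u.mul_inv
  choose V hV1 hV2 using h3
  have hC0 : 0 ≤ d⁻¹ + ∑ i ∈ Finset.range k, ‖V i‖ := by positivity
  have hC : ∀ i, ‖V i‖ ≤ d⁻¹ + ∑ i ∈ Finset.range k, ‖V i‖ := by
    intro i
    by_cases hi : k ≤ i
    · have h4 : ‖V i‖ ≤ d⁻¹ := by
        refine ContinuousLinearMap.opNorm_le_bound _ (by positivity) fun y => ?_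
        have h5 := h2 i hi (V i y)
        rw [norm_sub_rev, hV2] at h5
        rw [inv_mul_eq_div, le_div_iff₀ hd]
        linarith
      have h5 : 0 ≤ ∑ i ∈ Finset.range k, ‖V i‖ := by positivity
      linarith
    · have h4 : ‖V i‖ ≤ ∑ i ∈ Finset.range k, ‖V i‖ :=
        Finset.single_le_sum (f := fun i => ‖V i‖) (fun _ _ => norm_nonneg _)
          (Finset.mem_range.2 (by omega))
      have h5 : 0 ≤ d⁻¹ := by positivity
      linarith
  refine spectrum.notMem_iff.2 ⟨⟨_, lp.mapCLM 2 V hC0 hC, ?_, ?_⟩, rfl⟩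
  · refine ContinuousLinearMap.ext fun f => lp.ext (funext fun i => ?_)
    exact hV2 i (f i)
  · refine ContinuousLinearMap.ext fun f => lp.ext (funext fun i => ?_)
    exact hV1 i (f i)

lemma closed_stable (U : ℕ → X →L[ℂ] X) (hU : ∀ m, ‖U m‖ ≤ 1) :
    IsClosed {f | Tendsto (fun m => U m f) atTop (𝓝 0)} := by
  refine isClosed_of_closure_subset fun f hf => ?_
  change Tendsto (fun m => U m f) atTop (𝓝 0)
  rw [Metric.tendsto_atTop]
  intro ε hε
  obtain ⟨g, hg, hfg⟩ := Metric.mem_closure_iff.1 hf (ε / 2) (by positivity)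
  obtain ⟨N, hN⟩ := Metric.tendsto_atTop.1 hg (ε / 2) (by positivity)
  refine ⟨N, fun m hm => ?_⟩
  have h1 := hN m hm
  rw [dist_zero_right] at h1 ⊢
  have h2 : U m f = U m g + U m (f - g) := by rw [map_sub]; abel
  have h3 : ‖U m (f - g)‖ ≤ 1 * ‖f - g‖ := (U m).le_of_opNorm_le (hU m) _
  rw [dist_eq_norm] at hfg
  rw [h2]
  refine (norm_add_le _ _).trans_lt ?_
  linarith

lemma pow_le_one (D : X →L[ℂ] X) (hD : ‖D‖ ≤ 1) (m : ℕ) : ‖D ^ m‖ ≤ 1 := by
  induction m with
  | zero => rw [pow_zero]; exact ContinuousLinearMap.norm_id_le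
  | succ m ih =>
    rw [pow_succ]
    exact (norm_mul_le _ _).trans (mul_le_one₀ ih (norm_nonneg _) hD)

lemma star_le_one [CompleteSpace X] (D : X →L[ℂ] X) (hD : ‖D‖ ≤ 1) : ‖star D‖ ≤ 1 := by
  rw [ContinuousLinearMap.star_eq_adjoint, ContinuousLinearMap.adjoint.norm_map]
  exact hD

/-- the sum of strict contractions is of class C00 -/
theorem c00_ds [CompleteSpace X] (B : ℕ → X →L[ℂ] X) {K : ℝ} (hK : 0 ≤ K) (hB : ∀ i, ‖B i‖ ≤ K)
    (hK1 : K ≤ 1) (h : ∀ i, ‖B i‖ < 1) (f : lp (fun _ : ℕ => X) 2) :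
    Tendsto (fun m : ℕ => ((lp.mapCLM 2 B hK hB) ^ m) f) atTop (𝓝 0) ∧
      Tendsto (fun m : ℕ => (star (lp.mapCLM 2 B hK hB) ^ m) f) atTop (𝓝 0) := by
  set A := lp.mapCLM 2 B hK hB with hA
  have hA1 : ‖A‖ ≤ 1 := (lp.norm_mapCLM_le 2 B hK hB).trans hK1
  have hBpow : ∀ j (m : ℕ) y, ‖(B j ^ m) y‖ ≤ ‖B j‖ ^ m * ‖y‖ := by
    intro j m
    induction m with
    | zero => intro y; simp
    | succ m ih =>
      intro y
      have e : (B j ^ (m + 1)) y = (B j ^ m) (B j y) := by rw [pow_succ]; rfl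
      rw [e, pow_succ, mul_assoc]
      exact (ih _).trans (mul_le_mul_of_nonneg_left ((B j).le_opNorm y) (by positivity))
  have hco : ∀ (m : ℕ) g j, ((A ^ m) g : lp (fun _ : ℕ => X) 2) j = (B j ^ m) (g j) := by
    intro m
    induction m with
    | zero => intro g j; rfl
    | succ m ih =>
      intro g j
      have e1 : (A ^ (m + 1)) g = (A ^ m) (A g) := by rw [pow_succ]; rfl
      have e2 : (B j ^ (m + 1)) (g j) = (B j ^ m) (B j (g j)) := by rw [pow_succ]; rfl
      rw [e1, e2, ih]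
      rfl
  have hlim : ∀ j (x : X), Tendsto (fun m : ℕ => ‖B j‖ ^ m * ‖x‖) atTop (𝓝 0) := by
    intro j x
    have h1 := (tendsto_pow_atTop_nhds_zero_of_lt_one (norm_nonneg (B j)) (h j)).mul_const ‖x‖
    rwa [zero_mul] at h1
  have hall : ∀ U : ℕ → lp (fun _ : ℕ => X) 2 →L[ℂ] lp (fun _ : ℕ => X) 2, (∀ m, ‖U m‖ ≤ 1) →
      (∀ m j x, ‖U m (lp.single 2 j x)‖ ≤ ‖B j‖ ^ m * ‖x‖) →
      Tendsto (fun m => U m f) atTop (𝓝 0) := by
    intro U hU hs
    refine all_of_single (closed_stable U hU) ?_ (fun a ha b hb => ?_) (fun j x => ?_) f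
    · change Tendsto (fun m => U m 0) atTop (𝓝 0)
      simp only [map_zero]
      exact tendsto_const_nhds
    · change Tendsto (fun m => U m (a + b)) atTop (𝓝 0)
      simp only [map_add]
      have h1 := Tendsto.add ha hb
      rwa [add_zero] at h1
    · exact squeeze_zero_norm (fun m => hs m j x) (hlim j x)
  constructor
  · refine hall (fun m => A ^ m) (pow_le_one A hA1) fun m j x => ?_
    have e : (A ^ m) (lp.single 2 j x) = lp.single 2 j ((B j ^ m) x) := by
      ext k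
      rw [hco]
      by_cases hk : k = j
      · subst hk
        rw [lp.single_apply_self, lp.single_apply_self]
      · rw [lp.single_apply_ne _ _ _ hk, lp.single_apply_ne _ _ _ hk, map_zero]
    rw [e, lp.norm_single (by norm_num)]
    exact hBpow j m x
  · refine hall (fun m => star A ^ m) (pow_le_one _ (star_le_one A hA1)) fun m j x => ?_
    rw [← star_pow, ContinuousLinearMap.star_eq_adjoint]
    set g := ContinuousLinearMap.adjoint (A ^ m) (lp.single 2 j x) with hg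
    have h1 : inner ℂ g g = inner ℂ x ((B j ^ m) (g j)) := by
      conv_lhs => rw [hg, ContinuousLinearMap.adjoint_inner_left, lp.inner_single_left, hco]
    have h2 : ‖g‖ * ‖g‖ ≤ ‖x‖ * (‖B j‖ ^ m * ‖g‖) := by
      rw [← inner_self_eq_norm_mul_norm (𝕜 := ℂ), h1]
      refine (RCLike.re_le_norm _).trans ((norm_inner_le_norm _ _).trans ?_)
      refine mul_le_mul_of_nonneg_left ((hBpow j m _).trans ?_) (norm_nonneg _)
      exact mul_le_mul_of_nonneg_left (lp.norm_apply_le_norm (by norm_num) g j) (by positivity)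
    rcases (norm_nonneg g).eq_or_lt with h3 | h3
    · rw [← h3]; positivity
    · refine le_of_mul_le_mul_right ?_ h3
      linarith

end Vale.Agent.N131
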