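import Vale.Agent.N131.DSum

/-!
Operators with transitive commutant and prescribed spectrum.
-/

namespace Vale.Agent.N131

open Metric Vale.Agent.P131 Vale.Agent.P131.H856 Vale.Agent.P131.H97 Filter Topology

universe u

variable {H : Type u} [NormedAddCommGroup H] [InnerProductSpace ℂ H] [CompleteSpace H]

lemma qn_of_nil [Nontrivial H] {Q : H →L[ℂ] H} {k : ℕ} (hk : ∀ y, (Q ^ k) y = 0) : QN Q := by
  have h0 : Q ^ k = 0 := ContinuousLinearMap.ext hk
  have hsub : spectrum ℂ Q ⊆ {0} := by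
    intro z hz
    have h1 : z ^ k ∈ spectrum ℂ (Q ^ k) := spectrum.pow_mem_pow Q k hz
    rw [h0, spectrum.zero_eq] at h1
    exact (pow_eq_zero_iff'.1 (Set.mem_singleton_iff.1 h1)).1
  obtain ⟨w, hw⟩ := spectrum.nonempty Q
  refine qn_of_spectrum (hsub.antisymm fun z hz => ?_)
  have h1 := hsub hw
  rw [Set.mem_singleton_iff] at h1 hz
  rw [hz, ← h1]
  exact hw

lemma spec_closed {X : Type*} [NormedAddCommGroup X] [InnerProductSpace ℂ X] [CompleteSpace X]
    (A : X →L[ℂ] X) : IsClosed (spectrum ℂ A) := spectrum.isClosed A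

lemma move {X : Type*} [NormedAddCommGroup X] [InnerProductSpace ℂ X] [CompleteSpace X]
    (e : X ≃ₗᵢ[ℂ] H) {A : X →L[ℂ] X} (hA : TC A) :
    ∃ T : H →L[ℂ] H, TC T ∧ spectrum ℂ T = spectrum ℂ A ∧ ‖T‖ ≤ ‖A‖ ∧
      ((∀ x, Tendsto (fun m : ℕ => (A ^ m) x) atTop (𝓝 0) ∧
        Tendsto (fun m : ℕ => (star A ^ m) x) atTop (𝓝 0)) →
      ∀ x, Tendsto (fun m : ℕ => (T ^ m) x) atTop (𝓝 0) ∧
        Tendsto (fun m : ℕ => (star T ^ m) x) atTop (𝓝 0)) := by
  have hpow : ∀ (D : X →L[ℂ] X) (m : ℕ) x,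
      ((e.conjStarAlgEquiv D) ^ m) x = e ((D ^ m) (e.symm x)) := by
    intro D m x
    rw [← map_pow]
    rfl
  have hlim : ∀ (D : X →L[ℂ] X) x, Tendsto (fun m : ℕ => (D ^ m) (e.symm x)) atTop (𝓝 0) →
      Tendsto (fun m : ℕ => ((e.conjStarAlgEquiv D) ^ m) x) atTop (𝓝 0) := by
    intro D x h
    simp only [hpow]
    have h1 := (e.continuous.tendsto 0).comp h
    rwa [map_zero] at h1
  refine ⟨e.conjStarAlgEquiv A, hA.conj e.toContinuousLinearEquiv, ?_, ?_, fun h1 x => ?_⟩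
  · rw [AlgEquiv.spectrum_eq]
  · refine ContinuousLinearMap.opNorm_le_bound _ (norm_nonneg _) fun y => ?_
    change ‖e (A (e.symm y))‖ ≤ _
    rw [e.norm_map, ← e.symm.norm_map y]
    exact A.le_opNorm _
  · obtain ⟨h2, h3⟩ := h1 (e.symm x)
    refine ⟨hlim A x h2, ?_⟩
    rw [← map_star]
    exact hlim _ x h3

/-- one block of the sum -/
lemma block [TopologicalSpace.SeparableSpace H] (hH : ¬ FiniteDimensional ℂ H) {T : H →L[ℂ] H}
    (hU : ∀ Q : H →L[ℂ] H, QN Q → ∀ ρ : ℝ, 0 < ρ → ∃ S : H ≃L[ℂ] H, ‖cj S T - Q‖ ≤ ρ)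
    {G : Set ℂ} (hG : IsPreconnected G) {l0 : ℂ} {ε R : ℝ}
    (hε : 0 < ε) (h0 : l0 ∈ G) (hR : ∀ z ∈ G, ‖z‖ < R) {l : ℂ} (hl : l ∈ G) :
    ∃ S : H ≃L[ℂ] H, ‖cj S T + l0 • 1‖ < R ∧
      (∃ x, ‖x‖ = 1 ∧ ‖(cj S T + l0 • 1 : H →L[ℂ] H) x - l • x‖ ≤ 2 * ε) ∧
      ∀ (μ : ℂ) y, (infDist μ G - 2 * ε) * ‖y‖ ≤ ‖(cj S T + l0 • 1 : H →L[ℂ] H) y - μ • y‖ := by
  have hnt : Nontrivial H := by
    by_contra hcon
    rw [not_nontrivial_iff_subsingleton] at hcon
    exact hH inferInstance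
  obtain ⟨c, r, hc, hr, hδ⟩ := good_all hH hG hε h0 hR hl
  obtain ⟨N, x, ⟨k, hk⟩, h1, h2, -, h4, h5⟩ := hδ ε hε
  obtain ⟨S, hS⟩ := hU _ (qn_of_nil hk) (min ε ((R - r) / 2)) (lt_min hε (by linarith))
  have e : cj S T - (N - l0 • 1) = (cj S T + l0 • 1) - N := by abel
  rw [e] at hS
  set B : H →L[ℂ] H := cj S T + l0 • 1 with hB
  have hS1 := hS.trans (min_le_left _ _)
  have hS2 := hS.trans (min_le_right _ _)
  have h6 : ∀ y, ‖B y - N y‖ ≤ ε * ‖y‖ := fun y => (B - N).le_of_opNorm_le hS1 y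
  have hr0 : 0 ≤ r := by
    have := h4 x
    rw [h1, mul_one] at this
    exact (norm_nonneg _).trans this
  refine ⟨S, ?_, ⟨x, h1, ?_⟩, fun μ y => ?_⟩
  · have h7 : ‖N‖ ≤ r := ContinuousLinearMap.opNorm_le_bound _ hr0 h4
    have h8 : ‖B‖ ≤ ‖B - N‖ + ‖N‖ := by
      have e1 : B = (B - N) + N := by abel
      conv_lhs => rw [e1]
      exact norm_add_le _ _
    linarith
  · have e1 : B x - l • x = (B x - N x) + (N x - l • x) := by abel
    have h7 := h6 x
    rw [h1, mul_one] at h7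
    rw [e1]
    refine (norm_add_le _ _).trans ?_
    linarith
  · have h7 : ‖N y - μ • y‖ ≤ ‖B y - μ • y‖ + ‖B y - N y‖ := by
      have e1 : N y - μ • y = (B y - μ • y) - (B y - N y) := by abel
      rw [e1]
      exact norm_sub_le _ _
    have h8 := h5 μ y
    have h9 := h6 y
    have h10 := mul_le_mul_of_nonneg_right hc.le (norm_nonneg y)
    linarith

/-- the main existence theorem -/
theorem exists_spec [TopologicalSpace.SeparableSpace H] (hH : ¬ FiniteDimensional ℂ H)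
    {G : Set ℂ} (hG : IsConnected G) {R : ℝ} (hR : ∀ z ∈ G, ‖z‖ < R) :
    ∃ T : H →L[ℂ] H, TC T ∧ spectrum ℂ T = closure G ∧ ‖T‖ ≤ R ∧
      (R ≤ 1 → ∀ x, Tendsto (fun m : ℕ => (T ^ m) x) atTop (𝓝 0) ∧
        Tendsto (fun m : ℕ => (star T ^ m) x) atTop (𝓝 0)) := by
  have hnt : Nontrivial H := by
    by_contra hcon
    rw [not_nontrivial_iff_subsingleton] at hcon
    exact hH inferInstance
  obtain ⟨T, hT, hQ, hU⟩ := universal_all H hH
  obtain ⟨l0, h0⟩ := hG.nonempty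
  have hR0 : 0 ≤ R := (norm_nonneg _).trans (hR l0 h0).le
  have hne : Nonempty G := ⟨⟨l0, h0⟩⟩
  obtain ⟨g, hg⟩ := TopologicalSpace.exists_dense_seq G
  have hε : ∀ k : ℕ, (0 : ℝ) < 1 / ((k : ℝ) + 1) := fun k => by positivity
  choose S hS1 hS2 hS3 using fun k : ℕ =>
    block hH hU hG.isPreconnected (hε k) h0 hR (g (Nat.unpair k).1).2
  set B : ℕ → H →L[ℂ] H := fun k => cj (S k) T + l0 • 1 with hB
  have hBa : ∀ k y, B k y = S k (T ((S k).symm y)) + l0 • y := fun k y => rfl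
  have hBR : ∀ k, ‖B k‖ ≤ R := fun k => (hS1 k).le
  set A := lp.mapCLM 2 B hR0 hBR with hA
  have hTC : TC A := by
    refine TC_ds B hR0 hBR (fun k => tc_add_scalar (hT.conj (S k)) l0) fun i j => ?_
    refine ⟨(S j : H →L[ℂ] H) ∘L ((S i).symm : H →L[ℂ] H), fun x hx => ?_, fun x => ?_⟩
    · have h1 : S j ((S i).symm x) = 0 := hx
      simpa using h1
    · change S j ((S i).symm (B i x)) = B j (S j ((S i).symm x))
      rw [hBa, hBa]
      simp
  have hsp : spectrum ℂ A = closure G := by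
    apply Set.Subset.antisymm
    · intro μ hμ
      by_contra hcon
      have hd : 0 < infDist μ G := by
        rw [Metric.mem_closure_iff_infDist_zero ⟨l0, h0⟩] at hcon
        exact lt_of_le_of_ne infDist_nonneg (Ne.symm hcon)
      obtain ⟨k, hk⟩ := exists_nat_one_div_lt (show 0 < infDist μ G / 4 by positivity)
      refine not_mem_spec B hR0 hBR (fun i hi => ?_) (d := infDist μ G / 2) (by positivity) k
        (fun i hi y => le_trans ?_ (hS3 i μ y)) hμ
      · have h1 : spectrum ℂ (cj (S i) T) = {0} := (hQ.conj (S i)).spectrum_eq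
        have h2 : μ - l0 ∈ spectrum ℂ (cj (S i) T) := by
          intro h3
          apply hi
          have e : algebraMap ℂ (H →L[ℂ] H) μ - B i =
              algebraMap ℂ (H →L[ℂ] H) (μ - l0) - cj (S i) T := by
            rw [map_sub, Algebra.algebraMap_eq_smul_one l0]
            change _ - (cj (S i) T + l0 • 1) = _
            abel
          change IsUnit (algebraMap ℂ (H →L[ℂ] H) μ - B i)
          rw [e]
          exact h3
        rw [h1, Set.mem_singleton_iff, sub_eq_zero] at h2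
        exact hcon (h2 ▸ subset_closure h0)
      · refine mul_le_mul_of_nonneg_right ?_ (norm_nonneg _)
        have h1 : 1 / ((i : ℝ) + 1) ≤ 1 / ((k : ℝ) + 1) := Nat.one_div_le_one_div hi
        linarith
    · have h1 : ∀ n, (g n : ℂ) ∈ spectrum ℂ A := by
        intro n
        refine mem_spec fun η hη => ?_
        obtain ⟨m, hm⟩ := exists_nat_one_div_lt (show 0 < η / 2 by positivity)
        obtain ⟨x, hx1, hx2⟩ := hS2 (Nat.pair n m)
        rw [Nat.unpair_pair] at hx2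
        refine ⟨lp.single 2 (Nat.pair n m) x, by rw [lp.norm_single (by norm_num), hx1], ?_⟩
        rw [hA, ds_single, ← lp.single_smul, ← lp.single_sub, lp.norm_single (by norm_num)]
        have h2 : 1 / ((Nat.pair n m : ℝ) + 1) ≤ 1 / ((m : ℝ) + 1) :=
          Nat.one_div_le_one_div (Nat.right_le_pair n m)
        refine hx2.trans ?_
        linarith
      have h2 : IsClosed (spectrum ℂ A) := spec_closed A
      refine closure_minimal (fun z hz => ?_) h2
      have h3 : IsClosed {w : G | (w : ℂ) ∈ spectrum ℂ A} := h2.preimage continuous_subtype_val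
      exact hg.induction_on (p := fun w : G => (w : ℂ) ∈ spectrum ℂ A) ⟨z, hz⟩ h3 h1
  have hsep := sep_lp (X := H)
  obtain ⟨e⟩ := exists_equiv _ H (not_finite_of_transitive _ A hTC.1 hTC.2) hH
  obtain ⟨T', h1, h2, h3, h4⟩ := move e hTC
  exact ⟨T', h1, h2.trans hsp, h3.trans (lp.norm_mapCLM_le 2 B hR0 hBR), fun h5 =>
    h4 (c00_ds B hR0 hBR h5 (fun k => (hS1 k).trans_le h5))⟩

end Vale.Agent.N131
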