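import Vale.Agent.P131.H97.Card

/-!
One step of the chain: a nilpotent perturbation of a scalar with an almost reducing vector.
-/

namespace Vale.Agent.N131

open Metric

/-- the data carried along the chain -/
def Dat {X : Type*} [NormedAddCommGroup X] [InnerProductSpace ℂ X] (G : Set ℂ) (l0 : ℂ)
    (c r : ℝ) (l : ℂ) (δ : ℝ) (N : X →L[ℂ] X) (x : X) : Prop :=
  (∃ k : ℕ, ∀ y, ((N - l0 • 1) ^ k) y = 0) ∧ ‖x‖ = 1 ∧ ‖N x - l • x‖ ≤ δ ∧
    (∀ y, ‖inner ℂ x (N y - l • y)‖ ≤ δ * ‖y‖) ∧ (∀ y, ‖N y‖ ≤ r * ‖y‖) ∧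
    ∀ (μ : ℂ) y, (infDist μ G - c) * ‖y‖ ≤ ‖N y - μ • y‖

section

variable {X Y : Type*} [NormedAddCommGroup X] [InnerProductSpace ℂ X]
  [NormedAddCommGroup Y] [InnerProductSpace ℂ Y]

lemma Dat.transfer {G : Set ℂ} {l0 : ℂ} {c r : ℝ} {l : ℂ} {δ : ℝ} {N : X →L[ℂ] X} {x : X}
    (h : Dat G l0 c r l δ N x) (e : X ≃ₗᵢ[ℂ] Y) :
    ∃ (N' : Y →L[ℂ] Y) (x' : Y), Dat G l0 c r l δ N' x' := by
  obtain ⟨⟨k, hk⟩, h1, h2, h3, h4, h5⟩ := h
  let N' : Y →L[ℂ] Y := (e.toContinuousLinearEquiv : X →L[ℂ] Y) ∘L N ∘L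
    (e.symm.toContinuousLinearEquiv : Y →L[ℂ] X)
  have hN : ∀ y, N' y = e (N (e.symm y)) := fun y => rfl
  have hs : ∀ (μ : ℂ) y, N' y - μ • y = e (N (e.symm y) - μ • e.symm y) := by
    intro μ y
    rw [hN, map_sub, map_smul, e.apply_symm_apply]
  refine ⟨N', e x, ⟨k, ?_⟩, by rw [e.norm_map, h1], ?_, ?_, ?_, ?_⟩
  · have h6 : ∀ (t : ℕ) y, ((N' - l0 • 1) ^ t) y = e (((N - l0 • 1) ^ t) (e.symm y)) := by
      intro t
      induction t with
      | zero => intro y; simp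
      | succ t ih =>
        intro y
        have e1 : ((N' - l0 • 1) ^ (t + 1)) y = ((N' - l0 • 1) ^ t) (N' y - l0 • y) := by
          rw [pow_succ]; rfl
        have e2 : ((N - l0 • 1) ^ (t + 1)) (e.symm y) =
            ((N - l0 • 1) ^ t) (N (e.symm y) - l0 • e.symm y) := by
          rw [pow_succ]; rfl
        rw [e1, e2, ih, hs, e.symm_apply_apply]
    intro y
    rw [h6, hk, map_zero]
  · rw [hs, e.norm_map, e.symm_apply_apply]
    exact h2
  · intro y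
    rw [hs, e.inner_map_map, ← e.symm.norm_map y]
    exact h3 _
  · intro y
    rw [hN, e.norm_map, ← e.symm.norm_map y]
    exact h4 _
  · intro μ y
    rw [hs, e.norm_map, ← e.symm.norm_map y]
    exact h5 μ _

lemma pyth {u v p q : X} (h1 : inner ℂ u v = 0) (h2 : inner ℂ p q = 0) {a b : ℝ} (ha : 0 ≤ a)
    (hb : 0 ≤ b) (h3 : a * ‖u‖ ≤ b * ‖p‖) (h4 : a * ‖v‖ ≤ b * ‖q‖) :
    a * ‖u + v‖ ≤ b * ‖p + q‖ := by
  have e1 := norm_add_sq_eq_norm_sq_add_norm_sq_of_inner_eq_zero u v h1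
  have e2 := norm_add_sq_eq_norm_sq_add_norm_sq_of_inner_eq_zero p q h2
  have h5 := mul_self_le_mul_self (by positivity) h3
  have h6 := mul_self_le_mul_self (by positivity) h4
  refine (abs_le_of_sq_le_sq' ?_ (by positivity)).2
  have e3 : (a * ‖u + v‖) ^ 2 = a * ‖u‖ * (a * ‖u‖) + a * ‖v‖ * (a * ‖v‖) := by
    rw [mul_pow, sq ‖u + v‖, e1]; ring
  have e4 : (b * ‖p + q‖) ^ 2 = b * ‖p‖ * (b * ‖p‖) + b * ‖q‖ * (b * ‖q‖) := by
    rw [mul_pow, sq ‖p + q‖, e2]; ring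
  rw [e3, e4]
  exact add_le_add h5 h6

omit [InnerProductSpace ℂ X] in
lemma cmp {n : ℕ} (f g : PiLp 2 (fun _ : Fin n => X)) {a b : ℝ} (ha : 0 ≤ a) (hb : 0 ≤ b)
    (h : ∀ i, a * ‖f i‖ ≤ b * ‖g i‖) : a * ‖f‖ ≤ b * ‖g‖ := by
  refine (abs_le_of_sq_le_sq' ?_ (by positivity)).2
  rw [mul_pow, mul_pow, PiLp.norm_sq_eq_of_L2, PiLp.norm_sq_eq_of_L2, Finset.mul_sum,
    Finset.mul_sum]
  refine Finset.sum_le_sum fun i _ => ?_
  rw [← mul_pow, ← mul_pow]
  exact pow_le_pow_left₀ (by positivity) (h i) 2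

/-- an operator into the finite Hilbert sum from its components -/
noncomputable def mk {n : ℕ} (A : Fin n → (PiLp 2 (fun _ : Fin n => X) →L[ℂ] X)) :
    PiLp 2 (fun _ : Fin n => X) →L[ℂ] PiLp 2 (fun _ : Fin n => X) :=
  ((PiLp.continuousLinearEquiv 2 ℂ (fun _ : Fin n => X)).symm :
    (Fin n → X) →L[ℂ] PiLp 2 (fun _ : Fin n => X)) ∘L ContinuousLinearMap.pi A

lemma mk_apply {n : ℕ} (A : Fin n → (PiLp 2 (fun _ : Fin n => X) →L[ℂ] X))
    (f : PiLp 2 (fun _ : Fin n => X)) (i : Fin n) : mk A f i = A i f := rfl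

/-- the diagonal operator -/
noncomputable def dg (n : ℕ) (A : X →L[ℂ] X) :
    PiLp 2 (fun _ : Fin n => X) →L[ℂ] PiLp 2 (fun _ : Fin n => X) :=
  mk fun i => A ∘L PiLp.proj 2 (fun _ : Fin n => X) i

lemma dg_apply {n : ℕ} (A : X →L[ℂ] X) (f : PiLp 2 (fun _ : Fin n => X)) (i : Fin n) :
    dg n A f i = A (f i) := rfl

/-- the truncated shift with an operator weight -/
noncomputable def sh (n : ℕ) (A : X →L[ℂ] X) :
    PiLp 2 (fun _ : Fin (n + 1) => X) →L[ℂ] PiLp 2 (fun _ : Fin (n + 1) => X) :=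
  mk fun i => Fin.cases 0 (fun j : Fin n => A ∘L PiLp.proj 2 (fun _ : Fin (n + 1) => X) j.castSucc) i

lemma sh_zero {n : ℕ} (A : X →L[ℂ] X) (f : PiLp 2 (fun _ : Fin (n + 1) => X)) :
    sh n A f 0 = 0 := rfl

lemma sh_succ {n : ℕ} (A : X →L[ℂ] X) (f : PiLp 2 (fun _ : Fin (n + 1) => X)) (j : Fin n) :
    sh n A f j.succ = A (f j.castSucc) := rfl

lemma norm_sh {n : ℕ} {A : X →L[ℂ] X} (hA : ∀ y, ‖A y‖ ≤ ‖y‖)
    (f : PiLp 2 (fun _ : Fin (n + 1) => X)) : ‖sh n A f‖ ≤ ‖f‖ := by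
  refine (abs_le_of_sq_le_sq' ?_ (by positivity)).2
  rw [PiLp.norm_sq_eq_of_L2, PiLp.norm_sq_eq_of_L2, Fin.sum_univ_succ, Fin.sum_univ_castSucc,
    sh_zero, norm_zero]
  have h1 : ∑ j : Fin n, ‖sh n A f j.succ‖ ^ 2 ≤ ∑ j : Fin n, ‖f j.castSucc‖ ^ 2 :=
    Finset.sum_le_sum fun j _ => by
      rw [sh_succ]
      exact pow_le_pow_left₀ (norm_nonneg _) (hA _) 2
  have h2 : 0 ≤ ‖f (Fin.last n)‖ ^ 2 := by positivity
  linarith

/-- triangular operators with nilpotent diagonal are nilpotent -/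
lemma nil_tri {n : ℕ} {M A : X →L[ℂ] X} {k : ℕ} (hM : ∀ y, (M ^ k) y = 0) (w : ℂ) :
    ∀ f, ((dg (n + 1) M + w • sh n A) ^ (k * (n + 1))) f = 0 := by
  set B := dg (n + 1) M + w • sh n A with hB
  have hBa : ∀ f i, B f i = M (f i) + w • sh n A f i := fun f i => rfl
  have h1 : ∀ (j : ℕ) (g : PiLp 2 (fun _ : Fin (n + 1) => X)), (∀ i : Fin (n + 1), i.val < j → g i = 0) →
      ∀ (t : ℕ) (i : Fin (n + 1)), i.val ≤ j → (B ^ t) g i = (M ^ t) (g i) := by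
    intro j g hg t
    induction t with
    | zero => intro i _; rfl
    | succ t ih =>
      intro i hi
      have e1 : (B ^ (t + 1)) g = B ((B ^ t) g) := by rw [pow_succ']; rfl
      have e2 : (M ^ (t + 1)) (g i) = M ((M ^ t) (g i)) := by rw [pow_succ']; rfl
      rw [e1, e2, hBa, ih i hi]
      have h2 : sh n A ((B ^ t) g) i = 0 := by
        induction i using Fin.cases with
        | zero => exact sh_zero _ _
        | succ l =>
          have h3 : l.castSucc.val < j := by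
            simp only [Fin.val_succ] at hi
            simp only [Fin.val_castSucc]
            omega
          rw [sh_succ, ih _ h3.le, hg _ h3, map_zero, map_zero]
      rw [h2, smul_zero, add_zero]
  have h2 : ∀ (j : ℕ) f (i : Fin (n + 1)), i.val < j → (B ^ (k * j)) f i = 0 := by
    intro j
    induction j with
    | zero => intro f i hi; omega
    | succ j ih =>
      intro f i hi
      have e1 : (B ^ (k * (j + 1))) f = (B ^ k) ((B ^ (k * j)) f) := by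
        rw [show k * (j + 1) = k + k * j by ring, pow_add]; rfl
      rw [e1, h1 j _ (ih f) k i (by omega), hM]
  intro f
  ext i
  exact h2 (n + 1) f i i.2

end

end Vale.Agent.N131
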