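import Vale.Agent.N131.Step
import Mathlib.Algebra.Order.Chebyshev

/-!
The step from one point of the chain to the next one.
-/

namespace Vale.Agent.N131

open Metric

variable {X : Type*} [NormedAddCommGroup X] [InnerProductSpace ℂ X]

/-- the splitting of an operator along an almost reducing unit vector -/
lemma split {N : X →L[ℂ] X} {x : X} {l : ℂ} {δ : ℝ} (h1 : ‖x‖ = 1) (h2 : ‖N x - l • x‖ ≤ δ)
    (h3 : ∀ y, ‖inner ℂ x (N y - l • y)‖ ≤ δ * ‖y‖) :
    ∃ P D : X →L[ℂ] X, (∀ y, P y = inner ℂ x y • x) ∧ (∀ y, ‖N y - D y‖ ≤ 2 * δ * ‖y‖) ∧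
      D x = l • x ∧ ∀ y, inner ℂ x y = 0 → inner ℂ x (D y) = 0 := by
  have hxx : inner ℂ x x = 1 := by
    rw [inner_self_eq_norm_sq_to_K, h1]; simp
  have hδ : 0 ≤ δ := (norm_nonneg _).trans h2
  let P : X →L[ℂ] X := (innerSL ℂ x).smulRight x
  have hP : ∀ y, P y = inner ℂ x y • x := fun y => rfl
  let D : X →L[ℂ] X := (1 - P) * N * (1 - P) + l • P
  have hD : ∀ y, D y = (N (y - P y) - P (N (y - P y))) + l • P y := fun y => rfl
  have hPx : P x = x := by rw [hP, hxx, one_smul]
  have hperp : ∀ y, inner ℂ x (y - P y) = 0 := by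
    intro y
    rw [inner_sub_right, hP, inner_smul_right, hxx, mul_one, sub_self]
  have hle : ∀ y, ‖y - P y‖ ≤ ‖y‖ := by
    intro y
    have h4 : inner ℂ (P y) (y - P y) = 0 := by
      rw [hP y, inner_smul_left, ← hP y, hperp, mul_zero]
    have h5 := norm_add_sq_eq_norm_sq_add_norm_sq_of_inner_eq_zero _ _ h4
    rw [add_sub_cancel] at h5
    refine (abs_le_of_sq_le_sq' ?_ (norm_nonneg _)).2
    nlinarith [mul_self_nonneg ‖P y‖]
  refine ⟨P, D, hP, fun y => ?_, ?_, fun y hy => ?_⟩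
  · have e1 : N y - D y = inner ℂ x y • (N x - l • x) +
        inner ℂ x (N (y - P y) - l • (y - P y)) • x := by
      have e2 : inner ℂ x (N (y - P y) - l • (y - P y)) • x = P (N (y - P y)) := by
        rw [inner_sub_right, inner_smul_right, hperp, mul_zero, sub_zero, hP (N (y - P y))]
      have e3 : N (y - P y) = N y - inner ℂ x y • N x := by rw [map_sub, hP, map_smul]
      rw [e2, hD, hP y]
      rw [hP y] at e3
      rw [e3]
      module
    rw [e1]
    refine (norm_add_le _ _).trans ?_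
    rw [norm_smul, norm_smul, h1, mul_one]
    have h6 : ‖inner ℂ x y‖ ≤ ‖y‖ := by
      have := norm_inner_le_norm (𝕜 := ℂ) x y
      rwa [h1, one_mul] at this
    have h7 := (h3 (y - P y)).trans (mul_le_mul_of_nonneg_left (hle y) hδ)
    have h8 : ‖inner ℂ x y‖ * ‖N x - l • x‖ ≤ ‖y‖ * δ :=
      mul_le_mul h6 h2 (norm_nonneg _) (norm_nonneg _)
    linarith
  · rw [hD, hPx, sub_self, map_zero, map_zero, sub_self, zero_add]
  · rw [hD, inner_add_right, hperp, inner_smul_right, hP, hy, zero_smul, inner_zero_right,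
      mul_zero, add_zero]

/-- bounds for the perturbed amplification -/
lemma bounds {n : ℕ} {P D : X →L[ℂ] X} {x : X} {l : ℂ} (h1 : ‖x‖ = 1)
    (hP : ∀ y, P y = inner ℂ x y • x) (hDx : D x = l • x)
    (hD : ∀ y, inner ℂ x y = 0 → inner ℂ x (D y) = 0) (w μ : ℂ)
    (f : PiLp 2 (fun _ : Fin (n + 1) => X)) :
    (∀ a : ℝ, 0 ≤ a → (∀ y, a * ‖y‖ ≤ ‖D y - μ • y‖) → a ≤ ‖l - μ‖ - ‖w‖ →
      a * ‖f‖ ≤ ‖dg (n + 1) D f - μ • f + w • sh n P f‖) ∧
    (∀ b : ℝ, (∀ y, ‖D y - μ • y‖ ≤ b * ‖y‖) → ‖l - μ‖ + ‖w‖ ≤ b →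
      ‖dg (n + 1) D f - μ • f + w • sh n P f‖ ≤ b * ‖f‖) := by
  have hxx : inner ℂ x x = 1 := by
    rw [inner_self_eq_norm_sq_to_K, h1]; simp
  have hPle : ∀ y, ‖P y‖ ≤ ‖y‖ := by
    intro y
    rw [hP, norm_smul, h1, mul_one]
    have := norm_inner_le_norm (𝕜 := ℂ) x y
    rwa [h1, one_mul] at this
  set v := dg (n + 1) P f with hv
  set u := f - v with hu
  have hvi : ∀ i, v i = inner ℂ x (f i) • x := fun i => hP (f i)
  have hui : ∀ i, inner ℂ x (u i) = 0 := by
    intro i
    rw [hu, PiLp.sub_apply, inner_sub_right, hvi, inner_smul_right, hxx, mul_one, sub_self]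
  have hf : f = v + u := by rw [hu]; abel
  have horth : ∀ (p q : PiLp 2 (fun _ : Fin (n + 1) => X)), (∀ i, ∃ s : ℂ, p i = s • x) →
      (∀ i, inner ℂ x (q i) = 0) → inner ℂ p q = 0 := by
    intro p q hp hq
    rw [PiLp.inner_apply]
    refine Finset.sum_eq_zero fun i _ => ?_
    obtain ⟨s, hs⟩ := hp i
    rw [hs, inner_smul_left, hq i, mul_zero]
  have hsh : ∀ (g : PiLp 2 (fun _ : Fin (n + 1) => X)) i, ∃ s : ℂ, sh n P g i = s • x := by
    intro g i
    induction i using Fin.cases with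
    | zero => exact ⟨0, by rw [sh_zero, zero_smul]⟩
    | succ j => exact ⟨_, by rw [sh_succ, hP]⟩
  have hshu : sh n P u = 0 := by
    ext i
    induction i using Fin.cases with
    | zero => exact sh_zero _ _
    | succ j => rw [sh_succ, hP, hui, zero_smul]; rfl
  have hDv : dg (n + 1) D v = l • v := by
    ext i
    rw [dg_apply, PiLp.smul_apply, hvi, map_smul, hDx, smul_comm]
  set p := (l - μ) • v + w • sh n P v with hp
  set q := dg (n + 1) D u - μ • u with hq
  have hsum : dg (n + 1) D f - μ • f + w • sh n P f = p + q := by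
    conv_lhs => rw [hf]
    rw [map_add, map_add, hshu, hDv, hp, hq]
    module
  have o1 : inner ℂ v u = 0 := horth v u (fun i => ⟨_, hvi i⟩) hui
  have o2 : inner ℂ p q = 0 := by
    refine horth p q (fun i => ?_) (fun i => ?_)
    · obtain ⟨s, hs⟩ := hsh v i
      refine ⟨(l - μ) * inner ℂ x (f i) + w * s, ?_⟩
      rw [hp, PiLp.add_apply, PiLp.smul_apply, PiLp.smul_apply, hvi, hs, smul_smul, smul_smul,
        add_smul]
    · rw [hq, PiLp.sub_apply, PiLp.smul_apply, dg_apply, inner_sub_right, inner_smul_right, hui,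
        hD _ (hui i), mul_zero, sub_self]
  have hqi : ∀ i, q i = D (u i) - μ • u i := fun i => rfl
  have n1 : ‖(l - μ) • v‖ = ‖l - μ‖ * ‖v‖ := norm_smul _ _
  have n2 : ‖w • sh n P v‖ ≤ ‖w‖ * ‖v‖ := by
    rw [norm_smul]
    exact mul_le_mul_of_nonneg_left (norm_sh hPle v) (norm_nonneg _)
  rw [hsum]
  constructor
  · intro a ha h2 h3
    have h4 : a * ‖v‖ ≤ 1 * ‖p‖ := by
      have h5 : ‖(l - μ) • v‖ ≤ ‖p‖ + ‖w • sh n P v‖ := by
        have e : (l - μ) • v = p - w • sh n P v := by rw [hp]; abel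
        rw [e]
        exact norm_sub_le _ _
      have h6 := mul_le_mul_of_nonneg_right h3 (norm_nonneg v)
      linarith
    have h5 : a * ‖u‖ ≤ 1 * ‖q‖ := cmp u q ha zero_le_one fun i => by
      rw [one_mul, hqi]; exact h2 _
    have h6 := pyth o1 o2 ha zero_le_one h4 h5
    rwa [← hf, one_mul] at h6
  · intro b h2 h3
    have hb : 0 ≤ b := le_trans (by positivity) h3
    have h4 : 1 * ‖p‖ ≤ b * ‖v‖ := by
      have h5 : ‖p‖ ≤ ‖(l - μ) • v‖ + ‖w • sh n P v‖ := norm_add_le _ _
      have h6 := mul_le_mul_of_nonneg_right h3 (norm_nonneg v)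
      linarith
    have h5 : 1 * ‖q‖ ≤ b * ‖u‖ := cmp q u zero_le_one hb fun i => by
      rw [one_mul, hqi]; exact h2 _
    have h6 := pyth o2 o1 zero_le_one hb h4 h5
    rwa [← hf, one_mul] at h6

/-- the step -/
theorem step {G : Set ℂ} {l0 : ℂ} {c r : ℝ} {l : ℂ} {δ : ℝ} {N : X →L[ℂ] X} {x : X}
    (h : Dat G l0 c r l δ N x) (hl : l ∈ G) (w : ℂ) (n : ℕ) :
    ∃ (N' : PiLp 2 (fun _ : Fin (n + 1) => X) →L[ℂ] PiLp 2 (fun _ : Fin (n + 1) => X)) (x' : _),
      Dat G l0 (max c ‖w‖ + 4 * δ) (max r (‖l‖ + ‖w‖) + 4 * δ) (l + w)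
        (δ + ‖w‖ * (√((n : ℝ) + 1))⁻¹) N' x' := by
  obtain ⟨⟨k, hk⟩, h1, h2, h3, h4, h5⟩ := h
  have hδ : 0 ≤ δ := (norm_nonneg _).trans h2
  obtain ⟨P, D, hP, hE, hDx, hD⟩ := split h1 h2 h3
  have hxx : inner ℂ x x = 1 := by
    rw [inner_self_eq_norm_sq_to_K, h1]; simp
  set s : ℝ := (√((n : ℝ) + 1))⁻¹ with hs
  have hs0 : 0 < s := by positivity
  have hs2 : ((n : ℝ) + 1) * s ^ 2 = 1 := by
    rw [hs, inv_pow, Real.sq_sqrt (by positivity)]
    field_simp
  let N' := dg (n + 1) N + w • sh n P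
  let x' : PiLp 2 (fun _ : Fin (n + 1) => X) := WithLp.toLp 2 fun _ => (s : ℂ) • x
  have hx' : ∀ i, x' i = (s : ℂ) • x := fun i => rfl
  have hsx : ‖(s : ℂ) • x‖ = s := by
    rw [norm_smul, h1, mul_one, Complex.norm_real, Real.norm_of_nonneg hs0.le]
  have hn1 : ‖x'‖ = 1 := by
    have h6 : ‖x'‖ ^ 2 = 1 := by
      rw [PiLp.norm_sq_eq_of_L2]
      simp only [hx', hsx, Finset.sum_const, Finset.card_univ, Fintype.card_fin, nsmul_eq_mul]
      push_cast
      exact hs2
    exact (sq_eq_sq₀ (norm_nonneg _) zero_le_one).1 (by rw [h6, one_pow])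
  have hdec : ∀ (μ : ℂ) f, N' f - μ • f =
      (dg (n + 1) D f - μ • f + w • sh n P f) + dg (n + 1) (N - D) f := by
    intro μ f
    ext i
    change N (f i) + w • sh n P f i - μ • f i =
      D (f i) - μ • f i + w • sh n P f i + (N (f i) - D (f i))
    abel
  have hEf : ∀ f, ‖dg (n + 1) (N - D) f‖ ≤ 2 * δ * ‖f‖ := by
    intro f
    have h6 := cmp (dg (n + 1) (N - D) f) f zero_le_one (by positivity : 0 ≤ 2 * δ) fun i => by
      rw [one_mul]; exact hE (f i)
    rwa [one_mul] at h6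
  refine ⟨N', x', ⟨k * (n + 1), ?_⟩, hn1, ?_, ?_, ?_, ?_⟩
  · have e : N' - l0 • 1 = dg (n + 1) (N - l0 • 1) + w • sh n P := by
      ext f i
      change N (f i) + w • sh n P f i - l0 • f i = N (f i) - l0 • f i + w • sh n P f i
      abel
    rw [e]
    exact nil_tri hk w
  · let A : PiLp 2 (fun _ : Fin (n + 1) => X) := dg (n + 1) N x' - l • x'
    let B : PiLp 2 (fun _ : Fin (n + 1) => X) := sh n P x' - x'
    have e : N' x' - (l + w) • x' = A + w • B := by
      change dg (n + 1) N x' + w • sh n P x' - (l + w) • x' =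
        dg (n + 1) N x' - l • x' + w • (sh n P x' - x')
      module
    have hA : ‖A‖ ≤ δ := by
      have h6 := cmp A x' zero_le_one hδ fun i => by
        have e1 : A i = (s : ℂ) • (N x - l • x) := by
          change N ((s : ℂ) • x) - l • (s : ℂ) • x = _
          rw [map_smul]; module
        rw [one_mul, e1, hx', hsx, norm_smul, Complex.norm_real, Real.norm_of_nonneg hs0.le,
          mul_comm]
        exact mul_le_mul_of_nonneg_right h2 hs0.le
      rwa [one_mul, hn1, mul_one] at h6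
    have hB : ‖B‖ = s := by
      refine (sq_eq_sq₀ (norm_nonneg _) hs0.le).1 ?_
      rw [PiLp.norm_sq_eq_of_L2, Fin.sum_univ_succ]
      have e1 : B 0 = -((s : ℂ) • x) := by
        change sh n P x' 0 - x' 0 = _
        rw [sh_zero, hx', zero_sub]
      have e2 : ∀ j : Fin n, B j.succ = 0 := by
        intro j
        change sh n P x' j.succ - x' j.succ = _
        rw [sh_succ, hx' j.succ, hP, inner_smul_right, hxx, mul_one, sub_self]
      simp only [e1, e2, norm_neg, hsx, norm_zero]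
      simp
    rw [e]
    refine (norm_add_le _ _).trans ?_
    rw [norm_smul, hB]
    linarith
  · intro f
    have e : inner ℂ x' (N' f - (l + w) • f) =
        (s : ℂ) * (∑ i, inner ℂ x (N (f i) - l • f i)) - w * s * inner ℂ x (f (Fin.last n)) := by
      have e1 : ∀ i, inner ℂ (x' i) ((N' f - (l + w) • f) i) =
          (s : ℂ) * inner ℂ x (N (f i) - l • f i) +
            w * s * (inner ℂ x (sh n P f i) - inner ℂ x (f i)) := by
        intro i
        have e2 : (N' f - (l + w) • f) i = (N (f i) - l • f i) + w • (sh n P f i - f i) := by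
          change N (f i) + w • sh n P f i - (l + w) • f i = _
          module
        rw [e2, hx', inner_smul_left, Complex.conj_ofReal, inner_add_right, inner_smul_right,
          inner_sub_right (x := x) (y := sh n P f i)]
        ring
      rw [PiLp.inner_apply, Finset.sum_congr rfl fun i _ => e1 i, Finset.sum_add_distrib,
        ← Finset.mul_sum, ← Finset.mul_sum, Finset.sum_sub_distrib,
        Fin.sum_univ_succ (fun i => inner ℂ x (sh n P f i)),
        Fin.sum_univ_castSucc (fun i => inner ℂ x (f i)), sh_zero, inner_zero_right]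
      have e3 : ∀ j : Fin n, inner ℂ x (sh n P f j.succ) = inner ℂ x (f j.castSucc) := by
        intro j
        rw [sh_succ, hP, inner_smul_right, hxx, mul_one]
      simp only [e3]
      ring
    rw [e]
    refine (norm_sub_le _ _).trans ?_
    have h6 : ‖∑ i, inner ℂ x (N (f i) - l • f i)‖ ≤ δ * ∑ i, ‖f i‖ := by
      rw [Finset.mul_sum]
      exact norm_sum_le_of_le _ fun i _ => h3 (f i)
    have h7 : s * ∑ i, ‖f i‖ ≤ ‖f‖ := by
      refine (abs_le_of_sq_le_sq' ?_ (norm_nonneg _)).2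
      have h8 := sq_sum_le_card_mul_sum_sq (s := Finset.univ) (f := fun i => ‖f i‖)
      rw [← PiLp.norm_sq_eq_of_L2 (fun _ : Fin (n + 1) => X) f, Finset.card_univ,
        Fintype.card_fin] at h8
      push_cast at h8
      rw [mul_pow]
      calc s ^ 2 * (∑ i, ‖f i‖) ^ 2 ≤ s ^ 2 * (((n : ℝ) + 1) * ‖f‖ ^ 2) :=
            mul_le_mul_of_nonneg_left h8 (by positivity)
        _ = (((n : ℝ) + 1) * s ^ 2) * ‖f‖ ^ 2 := by ring
        _ = ‖f‖ ^ 2 := by rw [hs2, one_mul]
    have h8 : ‖inner ℂ x (f (Fin.last n))‖ ≤ ‖f‖ := by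
      have := norm_inner_le_norm (𝕜 := ℂ) x (f (Fin.last n))
      rw [h1, one_mul] at this
      exact this.trans (PiLp.norm_apply_le f _)
    rw [norm_mul, norm_mul, norm_mul, Complex.norm_real, Real.norm_of_nonneg hs0.le]
    have h9 : s * ‖∑ i, inner ℂ x (N (f i) - l • f i)‖ ≤ δ * ‖f‖ := by
      calc _ ≤ s * (δ * ∑ i, ‖f i‖) := mul_le_mul_of_nonneg_left h6 hs0.le
        _ = δ * (s * ∑ i, ‖f i‖) := by ring
        _ ≤ δ * ‖f‖ := mul_le_mul_of_nonneg_left h7 hδ
    have h10 : ‖w‖ * s * ‖inner ℂ x (f (Fin.last n))‖ ≤ ‖w‖ * s * ‖f‖ :=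
      mul_le_mul_of_nonneg_left h8 (by positivity)
    linarith
  · intro f
    have h6 := (bounds h1 hP hDx hD w 0 f).2 (max r (‖l‖ + ‖w‖) + 2 * δ) (fun y => by
      have h7 := h4 y
      have h8 := hE y
      have h9 : ‖D y‖ ≤ ‖N y‖ + ‖N y - D y‖ := by
        have e : D y = N y - (N y - D y) := by abel
        conv_lhs => rw [e]
        exact norm_sub_le _ _
      have h10 := mul_le_mul_of_nonneg_right (le_max_left r (‖l‖ + ‖w‖)) (norm_nonneg y)
      rw [zero_smul, sub_zero]
      linarith) (by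
      rw [sub_zero]
      have := le_max_right r (‖l‖ + ‖w‖)
      linarith)
    have h7 := hdec 0 f
    rw [zero_smul, sub_zero] at h7
    rw [h7]
    refine (norm_add_le _ _).trans ?_
    have h8 := hEf f
    rw [zero_smul] at h6
    linarith
  · intro μ f
    by_cases ha : 0 ≤ infDist μ G - max c ‖w‖ - 2 * δ
    · have h6 := (bounds h1 hP hDx hD w μ f).1 _ ha (fun y => by
        have h7 := h5 μ y
        have h8 := hE y
        have h9 : ‖N y - μ • y‖ ≤ ‖D y - μ • y‖ + ‖N y - D y‖ := by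
          have e : N y - μ • y = (D y - μ • y) + (N y - D y) := by abel
          rw [e]
          exact norm_add_le _ _
        have h10 := mul_le_mul_of_nonneg_right (le_max_left c ‖w‖) (norm_nonneg y)
        linarith) (by
        have h7 : infDist μ G ≤ ‖l - μ‖ := by
          rw [← dist_eq_norm, dist_comm]
          exact infDist_le_dist_of_mem hl
        have := le_max_right c ‖w‖
        linarith)
      have h7 : ‖dg (n + 1) D f - μ • f + w • sh n P f‖ ≤
          ‖N' f - μ • f‖ + ‖dg (n + 1) (N - D) f‖ := by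
        have e : dg (n + 1) D f - μ • f + w • sh n P f =
            (N' f - μ • f) - dg (n + 1) (N - D) f := by rw [hdec]; abel
        rw [e]
        exact norm_sub_le _ _
      have h8 := hEf f
      linarith
    · push Not at ha
      have h6 : (infDist μ G - (max c ‖w‖ + 4 * δ)) * ‖f‖ ≤ 0 :=
        mul_nonpos_of_nonpos_of_nonneg (by linarith) (norm_nonneg _)
      exact h6.trans (norm_nonneg _)

end Vale.Agent.N131
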